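import Vale.Agent.P016.Red
import Vale.Agent.P005.T2.All
import Vale.Agent.P319.N.Main

/-! # Artin's primitive root conjecture (infinitude form), unconditionally. -/

namespace Vale.Agent.Results.P016.A_full

/-- Every integer `a ≠ -1` that is not a perfect square is a primitive root modulo infinitely many primes. -/
theorem result : ∀ a : ℤ, a ≠ -1 → ¬IsSquare a →
    {p : ℕ | p.Prime ∧ ¬(p : ℤ) ∣ a ∧ orderOf (a : ZMod p) = p - 1}.Infinite :=
  Vale.Agent.P016.artin_of_zf Vale.Agent.P005.typeIIz' fun L _ _ h => Vale.Agent.P319.zf_all L h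

end Vale.Agent.Results.P016.A_full
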